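import Mathlib
import Vale.Agent.Lib.P137.helper41.Defs

/-!
# P137, piece C (pool job 348): centered averages of a radially nonincreasing function decrease
with the radius

Scaling `z ↦ (t / s) • z` maps the ball of radius `s` onto the ball of radius `t`, multiplies
Lebesgue measure by a constant, and increases the norm.  `cavg` is unfolded by definitional
equality only.
-/

namespace Vale.Agent.Lib.P137.H71

open Vale.Agent.Lib.P137 MeasureTheory Metric
open scoped ENNReal

theorem cavg_anti {d : ℕ} (hd : 1 ≤ d) (F : ℝ → ℝ≥0∞) (hF : Antitone F) {s t : ℝ}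
    (hs : 0 < s) (hst : s ≤ t) : cavg d F t ≤ cavg d F s := by
  have _hd := hd
  obtain ⟨c, hc⟩ : ∃ c : ℝ, c = t / s := ⟨_, rfl⟩
  have hc1 : 1 ≤ c := by
    rw [hc, le_div_iff₀ hs]
    linarith
  have hc0 : 0 < c := lt_of_lt_of_le one_pos hc1
  have hcs : c * s = t := by
    rw [hc]
    field_simp
  have hpre : (fun z : E d => c • z) ⁻¹' ball (0 : E d) t = ball (0 : E d) s := by
    ext z
    rw [Set.mem_preimage, mem_ball_zero_iff, mem_ball_zero_iff, norm_smul, Real.norm_eq_abs,
      abs_of_pos hc0, ← hcs]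
    constructor
    · intro h
      exact lt_of_mul_lt_mul_left h hc0.le
    · intro h
      exact mul_lt_mul_of_pos_left h hc0
  obtain ⟨a, ha⟩ : ∃ a : ℝ≥0∞,
      a = ENNReal.ofReal (|(c ^ Module.finrank ℝ (E d))⁻¹|) := ⟨_, rfl⟩
  have ha0 : a ≠ 0 := by
    rw [ha]
    have hpos : 0 < |(c ^ Module.finrank ℝ (E d))⁻¹| := by positivity
    exact (ENNReal.ofReal_pos.mpr hpos).ne'
  have hat : a ≠ ⊤ := by
    rw [ha]
    exact ENNReal.ofReal_ne_top
  have hmap : Measure.map (fun z : E d => c • z) (volume : Measure (E d))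
      = a • (volume : Measure (E d)) := by
    rw [ha]
    exact Measure.map_addHaar_smul volume hc0.ne'
  have hemb : MeasurableEmbedding (fun z : E d => c • z) :=
    (MeasurableEquiv.smul₀ c hc0.ne').measurableEmbedding
  have hmp : MeasurePreserving (fun z : E d => c • z) (volume : Measure (E d))
      (Measure.map (fun z : E d => c • z) (volume : Measure (E d))) :=
    ⟨hemb.measurable, rfl⟩
  have hV : volume (ball (0 : E d) s) = a * volume (ball (0 : E d) t) := by
    rw [← hpre, ha]
    exact Measure.addHaar_preimage_smul volume hc0.ne' _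
  have hI : ∫⁻ z in ball (0 : E d) s, F ‖c • z‖ = a * ∫⁻ y in ball (0 : E d) t, F ‖y‖ := by
    rw [← hpre, hmp.setLIntegral_comp_preimage_emb hemb (fun y => F ‖y‖) (ball (0 : E d) t),
      hmap, Measure.restrict_smul, lintegral_smul_measure, smul_eq_mul]
  have hle : ∫⁻ z in ball (0 : E d) s, F ‖c • z‖ ≤ ∫⁻ z in ball (0 : E d) s, F ‖z‖ := by
    apply lintegral_mono
    intro z
    apply hF
    rw [norm_smul, Real.norm_eq_abs, abs_of_pos hc0]
    nlinarith [norm_nonneg z]
  show (∫⁻ z in ball (0 : E d) t, F ‖z‖) / volume (ball (0 : E d) t)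
      ≤ (∫⁻ z in ball (0 : E d) s, F ‖z‖) / volume (ball (0 : E d) s)
  rw [hV]
  calc (∫⁻ z in ball (0 : E d) t, F ‖z‖) / volume (ball (0 : E d) t)
      = (a * ∫⁻ z in ball (0 : E d) t, F ‖z‖) / (a * volume (ball (0 : E d) t)) :=
        (ENNReal.mul_div_mul_left _ _ ha0 hat).symm
    _ ≤ (∫⁻ z in ball (0 : E d) s, F ‖z‖) / (a * volume (ball (0 : E d) t)) := by
        apply ENNReal.div_le_div_right
        rw [← hI]
        exact hle

end Vale.Agent.Lib.P137.H71
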